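import Vale.Agent.Lib.P249.helper81.GridZ

/-!
# P249 grid lower bound (helper62, report 1926): the finite core, from the lemmas

`grid_core_of_lemmas` is the statement `grid_core` of helper62's skeleton (report 2004), with the
four upstream lemmas (`grid_conc`, `khin_upper`, `khin_lower`, `grid_spread`) taken as hypotheses
in their exact skeleton form; `gZ_defect` is used from `GridZ.lean`.
-/

namespace Vale.Agent.Lib.P249.H81

open Finset
open Vale.Agent.Lib.P249.H62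

theorem gPhi_nonneg (M k : ℕ) (x : Fin k → Fin (2 * M + 1)) : 0 ≤ gPhi M k x := by
  unfold gPhi
  exact Finset.prod_nonneg (fun j _ => (Real.exp_pos _).le)

theorem gdist2_nonneg (M k : ℕ) (x y : Fin k → Fin (2 * M + 1)) : 0 ≤ gdist2 M k x y := by
  unfold gdist2
  exact Finset.sum_nonneg (fun j _ => sq_nonneg _)

theorem gZ_pos (M : ℕ) (hM : 1 ≤ M) : 0 < gZ M := by
  have h := (gZ_bounds M hM).1
  have h2 : 0 < (2 * (M : ℝ) + 1) / Real.exp 1 := by positivity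
  linarith

/-- The finite core for a general grid size `M`, given the defect bound for that `M`. -/
theorem grid_core_gen
    (hconc : ∀ (M : ℕ) (_ : 1 ≤ M) (k : ℕ) (q : ℝ) (_ : 1 ≤ q) (Lam : ℝ) (_ : 0 ≤ Lam)
      (h : (Fin k → Fin (2 * M + 1)) → ℝ)
      (_ : ∀ x y, |h x - h y| ≤ Lam * Real.sqrt (gdist2 M k x y)),
      ∑ x, ∑ y, gPhi M k x * gPhi M k y * |h x - h y| ^ q
        ≤ 2 * (gZ M + 1) ^ (2 * k) * (q * (M : ℝ) ^ 2 / Real.exp 1) ^ (q / 2) * Lam ^ q)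
    (hku : ∀ (k : ℕ) (q : ℝ) (_ : 0 < q) (c : Fin k → ℝ),
      ∑ e : Fin k → Bool, |∑ j, c j * sg (e j)| ^ q
        ≤ 2 * 2 ^ k * (q * (∑ j, c j ^ 2) / Real.exp 1) ^ (q / 2))
    (hkl : ∀ (k : ℕ) (q : ℝ) (_ : 2 ≤ q) (c : Fin k → ℝ),
      (2 : ℝ) ^ k * (∑ j, c j ^ 2) ^ (q / 2) ≤ ∑ e : Fin k → Bool, |∑ j, c j * sg (e j)| ^ q)
    (hspread : ∀ (M : ℕ) (_ : 1 ≤ M) (k : ℕ) (_ : 1 ≤ k) (q : ℝ) (_ : 2 ≤ q),
      gZ M ^ (2 * k) * (2 * k * (M : ℝ) ^ 2 / (3 * Real.exp 2)) ^ (q / 2)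
        ≤ ∑ x, ∑ y, gPhi M k x * gPhi M k y * (gdist2 M k x y) ^ (q / 2))
    (M k : ℕ) (hM : 1 ≤ M) (hk : 1 ≤ k)
    (hdef : (gZ M + 1) ^ (2 * k) ≤ Real.exp 1 * gZ M ^ (2 * k))
    (q : ℝ) (hq : 2 ≤ q) (d : ℕ) (s D : ℝ) (hs : 0 < s)
    (y : (Fin k → Fin (2 * M + 1)) → Fin d → ℝ)
    (hlow : ∀ c c', s ^ q * ∑ e, |gX M k c e - gX M k c' e| ^ q
      ≤ ∑ i, |y c i - y c' i| ^ q)
    (hup : ∀ c c', ∑ i, |y c i - y c' i| ^ q
      ≤ D ^ q * s ^ q * ∑ e, |gX M k c e - gX M k c' e| ^ q) :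
    (1 / 11 : ℝ) * (2 * k / (3 * q ^ 2)) ^ (q / 2) ≤ D ^ q * d := by
  have hq0 : 0 < q := by linarith
  have hq1 : 1 ≤ q := by linarith
  have he : 0 < Real.exp 1 := Real.exp_pos 1
  have hkR : (1 : ℝ) ≤ k := by exact_mod_cast hk
  have hMR : (1 : ℝ) ≤ M := by exact_mod_cast hM
  have hsq : 0 < s ^ q := Real.rpow_pos_of_pos hs q
  have hZ : 0 < gZ M := gZ_pos M hM
  generalize hDq : D ^ q = Dq at hup ⊢
  -- the differences of the points are Rademacher sums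
  have hdiff : ∀ (c c' : Fin k → Fin (2 * M + 1)) (e : Fin k → Bool),
      gX M k c e - gX M k c' e = ∑ j, (gv M (c j) - gv M (c' j)) * sg (e j) := by
    intro c c' e
    unfold gX
    rw [← Finset.sum_sub_distrib]
    exact Finset.sum_congr rfl (fun j _ => by ring)
  have hSeq : ∀ (c c' : Fin k → Fin (2 * M + 1)),
      ∑ e, |gX M k c e - gX M k c' e| ^ q
        = ∑ e : Fin k → Bool, |∑ j, (gv M (c j) - gv M (c' j)) * sg (e j)| ^ q := by
    intro c c'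
    exact Finset.sum_congr rfl (fun e _ => by rw [hdiff])
  have hG : ∀ (c c' : Fin k → Fin (2 * M + 1)),
      ∑ j, (gv M (c j) - gv M (c' j)) ^ 2 = gdist2 M k c c' := fun c c' => rfl
  have hS0 : ∀ (c c' : Fin k → Fin (2 * M + 1)), 0 ≤ ∑ e, |gX M k c e - gX M k c' e| ^ q :=
    fun c c' => Finset.sum_nonneg (fun e _ => Real.rpow_nonneg (abs_nonneg _) _)
  have hP2 : 0 < (q / Real.exp 1) ^ (q / 2) := Real.rpow_pos_of_pos (by positivity) _
  have hP1 : 0 < (q * (M : ℝ) ^ 2 / Real.exp 1) ^ (q / 2) := Real.rpow_pos_of_pos (by positivity) _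
  -- Khinchine, upper
  have hS_up : ∀ (c c' : Fin k → Fin (2 * M + 1)),
      ∑ e, |gX M k c e - gX M k c' e| ^ q
        ≤ 2 * 2 ^ k * ((q / Real.exp 1) ^ (q / 2) * (gdist2 M k c c') ^ (q / 2)) := by
    intro c c'
    have h1 := hku k q hq0 (fun j => gv M (c j) - gv M (c' j))
    rw [hSeq]
    refine le_trans h1 ?_
    rw [hG, mul_div_right_comm, Real.mul_rpow (by positivity) (gdist2_nonneg M k c c')]
  -- Khinchine, lower
  have hS_low : ∀ (c c' : Fin k → Fin (2 * M + 1)),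
      (2 : ℝ) ^ k * (gdist2 M k c c') ^ (q / 2) ≤ ∑ e, |gX M k c e - gX M k c' e| ^ q := by
    intro c c'
    have h1 := hkl k q hq (fun j => gv M (c j) - gv M (c' j))
    rw [hSeq]
    rw [hG] at h1
    exact h1
  have hT : 0 < (2 * (k : ℝ) * (M : ℝ) ^ 2 / (3 * Real.exp 2)) ^ (q / 2) :=
    Real.rpow_pos_of_pos (by have := Real.exp_pos 2; positivity) _
  have hW : 0 < gZ M ^ (2 * k) := by positivity
  have hsp := hspread M hM k hk q hq
  -- the distortion constant is nonnegative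
  have hDq0 : 0 ≤ Dq := by
    by_contra hneg'
    have hneg : Dq < 0 := not_le.mp hneg'
    have hGle : ∀ (c c' : Fin k → Fin (2 * M + 1)), (gdist2 M k c c') ^ (q / 2) ≤ 0 := by
      intro c c'
      have h1 := hlow c c'
      have h2 := hup c c'
      have h3 := hS_low c c'
      have h4 : Dq * s ^ q * ∑ e, |gX M k c e - gX M k c' e| ^ q ≤ 0 := by
        have h41 : Dq * s ^ q ≤ 0 := by nlinarith
        exact mul_nonpos_iff.mpr (Or.inr ⟨h41, hS0 c c'⟩)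
      have h5 : s ^ q * ((2 : ℝ) ^ k * (gdist2 M k c c') ^ (q / 2)) ≤ 0 := by
        have h51 := mul_le_mul_of_nonneg_left h3 hsq.le
        linarith
      by_contra hpos'
      have hpos : 0 < (gdist2 M k c c') ^ (q / 2) := not_le.mp hpos'
      have h6 : 0 < s ^ q * ((2 : ℝ) ^ k * (gdist2 M k c c') ^ (q / 2)) := by positivity
      linarith
    have h8 : ∑ x, ∑ y, gPhi M k x * gPhi M k y * (gdist2 M k x y) ^ (q / 2) ≤ 0 :=
      Finset.sum_nonpos (fun x _ => Finset.sum_nonpos (fun y _ =>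
        mul_nonpos_iff.mpr (Or.inl ⟨mul_nonneg (gPhi_nonneg M k x) (gPhi_nonneg M k y),
          hGle x y⟩)))
    have h9 : 0 < gZ M ^ (2 * k) * (2 * (k : ℝ) * (M : ℝ) ^ 2 / (3 * Real.exp 2)) ^ (q / 2) :=
      mul_pos hW hT
    linarith
  -- the Lipschitz constant
  set B : ℝ := Dq * s ^ q * (2 * 2 ^ k * (q / Real.exp 1) ^ (q / 2)) with hB
  have hB0 : 0 ≤ B := by positivity
  set Lam : ℝ := B ^ (1 / q) with hLam
  have hLam0 : 0 ≤ Lam := Real.rpow_nonneg hB0 _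
  have hLamq : Lam ^ q = B := by
    rw [hLam, ← Real.rpow_mul hB0, one_div_mul_cancel hq0.ne', Real.rpow_one]
  have hlip : ∀ (i : Fin d) (x x' : Fin k → Fin (2 * M + 1)),
      |y x i - y x' i| ≤ Lam * Real.sqrt (gdist2 M k x x') := by
    intro i x x'
    have h1 : |y x i - y x' i| ^ q ≤ ∑ i', |y x i' - y x' i'| ^ q :=
      Finset.single_le_sum (f := fun i' => |y x i' - y x' i'| ^ q)
        (fun i' _ => Real.rpow_nonneg (abs_nonneg _) _) (Finset.mem_univ i)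
    have h2 := hup x x'
    have h3 : Dq * s ^ q * ∑ e, |gX M k x e - gX M k x' e| ^ q
        ≤ Dq * s ^ q * (2 * 2 ^ k * ((q / Real.exp 1) ^ (q / 2) * (gdist2 M k x x') ^ (q / 2))) :=
      mul_le_mul_of_nonneg_left (hS_up x x') (by positivity)
    have h4 : (Lam * Real.sqrt (gdist2 M k x x')) ^ q = B * (gdist2 M k x x') ^ (q / 2) := by
      rw [Real.mul_rpow hLam0 (Real.sqrt_nonneg _), hLamq, Real.sqrt_eq_rpow,
        ← Real.rpow_mul (gdist2_nonneg M k x x')]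
      congr 2
      ring
    have h5 : |y x i - y x' i| ^ q ≤ (Lam * Real.sqrt (gdist2 M k x x')) ^ q := by
      rw [h4, hB]
      calc |y x i - y x' i| ^ q ≤ ∑ i', |y x i' - y x' i'| ^ q := h1
        _ ≤ Dq * s ^ q * ∑ e, |gX M k x e - gX M k x' e| ^ q := h2
        _ ≤ _ := h3
        _ = _ := by ring
    exact (Real.rpow_le_rpow_iff (abs_nonneg _)
      (mul_nonneg hLam0 (Real.sqrt_nonneg _)) hq0).mp h5
  -- concentration for every coordinate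
  have hc : ∀ i : Fin d, ∑ x, ∑ x', gPhi M k x * gPhi M k x' * |y x i - y x' i| ^ q
      ≤ 2 * (gZ M + 1) ^ (2 * k) * (q * (M : ℝ) ^ 2 / Real.exp 1) ^ (q / 2) * B := by
    intro i
    have h1 := hconc M hM k q hq1 Lam hLam0 (fun c => y c i) (hlip i)
    rw [hLamq] at h1
    exact h1
  -- the main chain
  have hchain : s ^ q * (2 : ℝ) ^ k *
      (gZ M ^ (2 * k) * (2 * (k : ℝ) * (M : ℝ) ^ 2 / (3 * Real.exp 2)) ^ (q / 2))
      ≤ (d : ℝ) * (2 * (gZ M + 1) ^ (2 * k) * (q * (M : ℝ) ^ 2 / Real.exp 1) ^ (q / 2) * B) := by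
    calc s ^ q * (2 : ℝ) ^ k *
          (gZ M ^ (2 * k) * (2 * (k : ℝ) * (M : ℝ) ^ 2 / (3 * Real.exp 2)) ^ (q / 2))
        ≤ s ^ q * (2 : ℝ) ^ k *
            ∑ x, ∑ x', gPhi M k x * gPhi M k x' * (gdist2 M k x x') ^ (q / 2) :=
          mul_le_mul_of_nonneg_left hsp (by positivity)
      _ = ∑ x, ∑ x', gPhi M k x * gPhi M k x' *
            (s ^ q * ((2 : ℝ) ^ k * (gdist2 M k x x') ^ (q / 2))) := by
          rw [Finset.mul_sum]
          refine Finset.sum_congr rfl (fun x _ => ?_)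
          rw [Finset.mul_sum]
          refine Finset.sum_congr rfl (fun x' _ => ?_)
          ring
      _ ≤ ∑ x, ∑ x', gPhi M k x * gPhi M k x' * ∑ i, |y x i - y x' i| ^ q := by
          refine Finset.sum_le_sum (fun x _ => Finset.sum_le_sum (fun x' _ => ?_))
          refine mul_le_mul_of_nonneg_left ?_
            (mul_nonneg (gPhi_nonneg M k x) (gPhi_nonneg M k x'))
          refine le_trans ?_ (hlow x x')
          exact mul_le_mul_of_nonneg_left (hS_low x x') hsq.le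
      _ = ∑ i : Fin d, ∑ x, ∑ x', gPhi M k x * gPhi M k x' * |y x i - y x' i| ^ q := by
          simp only [Finset.mul_sum]
          rw [Finset.sum_comm (s := (Finset.univ : Finset (Fin d)))]
          refine Finset.sum_congr rfl (fun x _ => ?_)
          exact Finset.sum_comm
      _ ≤ ∑ _i : Fin d,
            2 * (gZ M + 1) ^ (2 * k) * (q * (M : ℝ) ^ 2 / Real.exp 1) ^ (q / 2) * B :=
          Finset.sum_le_sum (fun i _ => hc i)
      _ = _ := by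
          rw [Finset.sum_const, Finset.card_univ, Fintype.card_fin, nsmul_eq_mul]
  -- algebra
  set U : ℝ := (2 * (k : ℝ) / (3 * q ^ 2)) ^ (q / 2) with hU
  set P1 : ℝ := (q * (M : ℝ) ^ 2 / Real.exp 1) ^ (q / 2) with hP1def
  set P2 : ℝ := (q / Real.exp 1) ^ (q / 2) with hP2def
  have hU0 : 0 ≤ U := Real.rpow_nonneg (by positivity) _
  have hTeq : (2 * (k : ℝ) * (M : ℝ) ^ 2 / (3 * Real.exp 2)) ^ (q / 2) = U * (P1 * P2) := by
    have hexp2 : Real.exp 2 = Real.exp 1 * Real.exp 1 := by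
      rw [← Real.exp_add]; norm_num
    have h1 : 2 * (k : ℝ) * (M : ℝ) ^ 2 / (3 * Real.exp 2)
        = (2 * (k : ℝ) / (3 * q ^ 2)) * ((q * (M : ℝ) ^ 2 / Real.exp 1) * (q / Real.exp 1)) := by
      rw [hexp2]
      field_simp
    rw [h1, Real.mul_rpow (by positivity) (by positivity),
      Real.mul_rpow (by positivity) (by positivity)]
  have hA : 0 < s ^ q * (2 : ℝ) ^ k * gZ M ^ (2 * k) := by positivity
  have hfin : s ^ q * (2 : ℝ) ^ k * gZ M ^ (2 * k) * (U * (P1 * P2))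
      ≤ s ^ q * (2 : ℝ) ^ k * gZ M ^ (2 * k) * ((4 * Real.exp 1 * (d : ℝ) * Dq) * (P1 * P2)) := by
    have h1 : (d : ℝ) * (2 * (gZ M + 1) ^ (2 * k) * P1 * B)
        ≤ (d : ℝ) * (2 * (Real.exp 1 * gZ M ^ (2 * k)) * P1 * B) := by
      have hd0 : (0 : ℝ) ≤ d := Nat.cast_nonneg d
      have h11 : 2 * (gZ M + 1) ^ (2 * k) * P1 * B ≤ 2 * (Real.exp 1 * gZ M ^ (2 * k)) * P1 * B := by
        have h12 : 0 ≤ P1 * B := mul_nonneg hP1.le hB0
        nlinarith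
      exact mul_le_mul_of_nonneg_left h11 hd0
    rw [hTeq] at hchain
    calc s ^ q * (2 : ℝ) ^ k * gZ M ^ (2 * k) * (U * (P1 * P2))
        = s ^ q * (2 : ℝ) ^ k * (gZ M ^ (2 * k) * (U * (P1 * P2))) := by ring
      _ ≤ (d : ℝ) * (2 * (gZ M + 1) ^ (2 * k) * P1 * B) := hchain
      _ ≤ (d : ℝ) * (2 * (Real.exp 1 * gZ M ^ (2 * k)) * P1 * B) := h1
      _ = _ := by rw [hB]; ring
  have hfin2 : U * (P1 * P2) ≤ (4 * Real.exp 1 * (d : ℝ) * Dq) * (P1 * P2) :=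
    le_of_mul_le_mul_left hfin hA
  have hfin3 : U ≤ 4 * Real.exp 1 * (d : ℝ) * Dq :=
    le_of_mul_le_mul_right hfin2 (mul_pos hP1 hP2)
  have he3 : Real.exp 1 < 2.75 := by
    have := Real.exp_one_lt_d9; linarith
  have hdD : 0 ≤ (d : ℝ) * Dq := mul_nonneg (Nat.cast_nonneg d) hDq0
  nlinarith

/-- `grid_core` of helper62's skeleton, from the four upstream lemmas. -/
theorem grid_core_of_lemmas
    (hconc : ∀ (M : ℕ) (_ : 1 ≤ M) (k : ℕ) (q : ℝ) (_ : 1 ≤ q) (Lam : ℝ) (_ : 0 ≤ Lam)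
      (h : (Fin k → Fin (2 * M + 1)) → ℝ)
      (_ : ∀ x y, |h x - h y| ≤ Lam * Real.sqrt (gdist2 M k x y)),
      ∑ x, ∑ y, gPhi M k x * gPhi M k y * |h x - h y| ^ q
        ≤ 2 * (gZ M + 1) ^ (2 * k) * (q * (M : ℝ) ^ 2 / Real.exp 1) ^ (q / 2) * Lam ^ q)
    (hku : ∀ (k : ℕ) (q : ℝ) (_ : 0 < q) (c : Fin k → ℝ),
      ∑ e : Fin k → Bool, |∑ j, c j * sg (e j)| ^ q
        ≤ 2 * 2 ^ k * (q * (∑ j, c j ^ 2) / Real.exp 1) ^ (q / 2))
    (hkl : ∀ (k : ℕ) (q : ℝ) (_ : 2 ≤ q) (c : Fin k → ℝ),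
      (2 : ℝ) ^ k * (∑ j, c j ^ 2) ^ (q / 2) ≤ ∑ e : Fin k → Bool, |∑ j, c j * sg (e j)| ^ q)
    (hspread : ∀ (M : ℕ) (_ : 1 ≤ M) (k : ℕ) (_ : 1 ≤ k) (q : ℝ) (_ : 2 ≤ q),
      gZ M ^ (2 * k) * (2 * k * (M : ℝ) ^ 2 / (3 * Real.exp 2)) ^ (q / 2)
        ≤ ∑ x, ∑ y, gPhi M k x * gPhi M k y * (gdist2 M k x y) ^ (q / 2))
    (k : ℕ) (hk : 1 ≤ k) (q : ℝ) (hq : 2 ≤ q) (d : ℕ) (s D : ℝ) (hs : 0 < s)
    (y : (Fin k → Fin (2 * (3 * k) + 1)) → Fin d → ℝ)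
    (hlow : ∀ c c', s ^ q * ∑ e, |gX (3 * k) k c e - gX (3 * k) k c' e| ^ q
      ≤ ∑ i, |y c i - y c' i| ^ q)
    (hup : ∀ c c', ∑ i, |y c i - y c' i| ^ q
      ≤ D ^ q * s ^ q * ∑ e, |gX (3 * k) k c e - gX (3 * k) k c' e| ^ q) :
    (1 / 11 : ℝ) * (2 * k / (3 * q ^ 2)) ^ (q / 2) ≤ D ^ q * d :=
  grid_core_gen hconc hku hkl hspread (3 * k) k (by omega) hk (gZ_defect k hk) q hq d s D hs y
    hlow hup

end Vale.Agent.Lib.P249.H81
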