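import Vale.Agent.Lib.P249.helper62.GridDefs

/-!
# P249 grid lower bound (helper62, report 1926): the small pieces

`gZ_bounds`, `gZ_defect`, `gX_injective` with the exact statements of helper62's skeleton.
-/

namespace Vale.Agent.Lib.P249.H81

open Finset
open Vale.Agent.Lib.P249.H62

theorem gv_sq_le (M : ℕ) (t : Fin (2 * M + 1)) : (gv M t) ^ 2 ≤ (M : ℝ) ^ 2 := by
  unfold gv
  have h1 : ((t : ℕ) : ℝ) ≤ 2 * M := by
    have h2 : (t : ℕ) ≤ 2 * M := by have := t.2; omega
    exact_mod_cast h2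
  have h0 : (0 : ℝ) ≤ ((t : ℕ) : ℝ) := by positivity
  nlinarith

theorem gphi_le_one (M : ℕ) (t : Fin (2 * M + 1)) : gphi M t ≤ 1 := by
  unfold gphi
  rw [← Real.exp_zero]
  apply Real.exp_le_exp.mpr
  have : 0 ≤ (gv M t) ^ 2 / (M : ℝ) ^ 2 := by positivity
  rw [neg_div]; linarith

theorem gphi_ge (M : ℕ) (hM : 1 ≤ M) (t : Fin (2 * M + 1)) : Real.exp (-1) ≤ gphi M t := by
  unfold gphi
  apply Real.exp_le_exp.mpr
  have hM1 : (1 : ℝ) ≤ M := by exact_mod_cast hM
  have hMpos : (0 : ℝ) < (M : ℝ) ^ 2 := by positivity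
  rw [neg_div, neg_le_neg_iff, div_le_one hMpos]
  exact gv_sq_le M t

/-- J-I1: bounds on the one-coordinate total weight. -/
theorem gZ_bounds (M : ℕ) (hM : 1 ≤ M) :
    (2 * (M : ℝ) + 1) / Real.exp 1 ≤ gZ M ∧ gZ M ≤ 2 * (M : ℝ) + 1 := by
  constructor
  · unfold gZ
    calc (2 * (M : ℝ) + 1) / Real.exp 1 = ∑ _t : Fin (2 * M + 1), Real.exp (-1) := by
          rw [Finset.sum_const, Finset.card_univ, Fintype.card_fin, Real.exp_neg, nsmul_eq_mul]
          push_cast
          ring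
      _ ≤ _ := Finset.sum_le_sum (fun t _ => gphi_ge M hM t)
  · unfold gZ
    calc ∑ t : Fin (2 * M + 1), gphi M t ≤ ∑ _t : Fin (2 * M + 1), (1 : ℝ) :=
          Finset.sum_le_sum (fun t _ => gphi_le_one M t)
      _ = 2 * (M : ℝ) + 1 := by
          rw [Finset.sum_const, Finset.card_univ, Fintype.card_fin, nsmul_eq_mul]
          push_cast
          ring

/-- J-I2: the defect is summable: `(Z + 1)^(2k) ≤ e * Z^(2k)` for `M = 3k`. -/
theorem gZ_defect (k : ℕ) (hk : 1 ≤ k) :
    (gZ (3 * k) + 1) ^ (2 * k) ≤ Real.exp 1 * gZ (3 * k) ^ (2 * k) := by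
  have hb := (gZ_bounds (3 * k) (by omega)).1
  have hk1 : (1 : ℝ) ≤ k := by exact_mod_cast hk
  have he : Real.exp 1 < 3 := by
    have := Real.exp_one_lt_d9; linarith
  have hepos := Real.exp_pos 1
  have hZ : 2 * (k : ℝ) ≤ gZ (3 * k) := by
    refine le_trans ?_ hb
    rw [le_div_iff₀ hepos]
    push_cast
    nlinarith
  have hZpos : 0 < gZ (3 * k) := by linarith
  have h1 : gZ (3 * k) + 1 ≤ gZ (3 * k) * Real.exp (1 / gZ (3 * k)) := by
    have h := Real.add_one_le_exp (1 / gZ (3 * k))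
    have h2 : gZ (3 * k) * (1 / gZ (3 * k) + 1) ≤ gZ (3 * k) * Real.exp (1 / gZ (3 * k)) :=
      mul_le_mul_of_nonneg_left h hZpos.le
    have h3 : gZ (3 * k) * (1 / gZ (3 * k) + 1) = gZ (3 * k) + 1 := by
      rw [mul_add, mul_one, mul_one_div, div_self hZpos.ne']; ring
    linarith
  calc (gZ (3 * k) + 1) ^ (2 * k) ≤ (gZ (3 * k) * Real.exp (1 / gZ (3 * k))) ^ (2 * k) :=
        pow_le_pow_left₀ (by linarith) h1 _
    _ = Real.exp (((2 * k : ℕ) : ℝ) * (1 / gZ (3 * k))) * gZ (3 * k) ^ (2 * k) := by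
        rw [mul_pow, ← Real.exp_nat_mul]; ring
    _ ≤ Real.exp 1 * gZ (3 * k) ^ (2 * k) := by
        apply mul_le_mul_of_nonneg_right _ (by positivity)
        apply Real.exp_le_exp.mpr
        push_cast
        rw [mul_one_div, div_le_one hZpos]
        exact hZ

/-- J-L1: the points are distinct. -/
theorem gX_injective (M k : ℕ) : Function.Injective (gX M k) := by
  intro x x' h
  funext j
  have h0 := congrFun h (fun _ => false)
  have hj := congrFun h (fun i => decide (i = j))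
  unfold gX at h0 hj
  have key : ∀ z : Fin k → Fin (2 * M + 1),
      (∑ i, gv M (z i) * sg false) - (∑ i, gv M (z i) * sg (decide (i = j)))
        = 2 * gv M (z j) := by
    intro z
    rw [← Finset.sum_sub_distrib]
    rw [Finset.sum_eq_single j]
    · simp [sg]; ring
    · intro i _ hij
      simp [sg, hij]
    · intro hj; exact absurd (Finset.mem_univ j) hj
  have e1 := key x
  have e2 := key x'
  have h4 : gv M (x j) = gv M (x' j) := by linarith
  unfold gv at h4
  have h3 : ((x j : ℕ) : ℝ) = ((x' j : ℕ) : ℝ) := by linarith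
  exact Fin.ext (by exact_mod_cast h3)

end Vale.Agent.Lib.P249.H81
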